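import Vale.Agent.P073.H726.SegFin
import Vale.Agent.P073.H761.GenX
import Vale.Agent.P073.H989.RatHyb
import Vale.Agent.P073.H73.CloseAll
import Vale.Agent.P073.H953.Bm6
import Vale.Agent.P073.H234.Hyb

/-!
# P073: `3 ≤ p` from `K3C` (check)
-/

open Set Metric Topology Filter MeasureTheory

namespace Vale.Agent.P073.H234.Fin

open Vale.Agent.P073
open Vale.Agent.P073.H304 (K3C)
open Vale.Agent.P073.H608 (Full)

theorem gxOk {p : ℝ} (hp : 3 ≤ p) : H234.GX.GXOk p (H761.GenX p) :=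
  H761.gxOk (q := 5 / 2) hp (by norm_num) (by norm_num)
    (H953.closeK (by norm_num) (by norm_num)) (H989.specRatHyb (by norm_num))

theorem full_ge_of_K3C {p : ℝ} (hp : 3 ≤ p) (hK : K3C p) : Full p :=
  H726.full_of_fam hp (gxOk hp) H234.Hyb.specHyb
    (fun _ _ _ _ _ _ hΩ hΛ hf hF hG _ hR => H761.GenX.fam hG hR) hK

end Vale.Agent.P073.H234.Fin
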